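import Crest.Agent.X262.Coh.Defs
import Crest.Agent.X262.Top.Defs

/-!
# Row 262, ISO and H31 (helper56): statements

* `H31 C`     : a smooth cubic fourfold has a nonzero class of type `(3,1)`;
* `IsoStmt C` : the correspondences from the cubic to the K3 surface;
* `SupK`, `PlK`, `DomS`, `Bir0` : the formal facts which are used in the proof of `IsoStmt`.
-/

set_option autoImplicit false

noncomputable section

namespace Crest.Agent.X262.Hx56

open Crest.Agent.X277 Crest.Agent.X277.Lef Crest.Agent.X277.AN.G1 Crest.Agent.X277.BD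
open Crest.Agent.X277.BD.Br (At)
open Crest.Agent.X262.Coh Crest.Agent.X262.Top

variable (C : Th)

/-- a smooth cubic fourfold has a nonzero class of type `(3,1)` -/
def H31 : Prop := ∀ (G : MvPolynomial (Fin 6) ℂ) (K : Type) [Field K] [Algebra ℂ K]
  (X : Hyp 5 G K), SmCub G → C.typ (sv X.P) 3 1 ≠ ⊥

/-- the correspondence `z ↦ w_* (u^* z · w'^* ω)` -/
def psi {Q U S : SV} (u : Hom Q U) (w w' : Hom Q S) (ω : C.H S) : C.H U →ₗ[ℂ] C.H S :=
  C.push w ∘ₗ LinearMap.mulRight ℂ (C.pb w' ω) ∘ₗ (C.pb u).toLinearMap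

theorem psi_apply {Q U S : SV} (u : Hom Q U) (w w' : Hom Q S) (ω : C.H S) (z : C.H U) :
    psi C u w w' ω z = C.push w (C.pb u z * C.pb w' ω) := rfl

/-- the output of ISO for a model `q : U → X` and a surface `S`; `ω` is the class of a point -/
def IsoOut {U X : SV} (q : Hom U X) (S : SV) : Prop :=
  ∃ (N : ℤ) (Q : SV) (u : Hom Q U) (w w' : Hom Q S) (φ : C.H S →ₗ[ℂ] C.H S),
    N ≠ 0 ∧ N.natAbs ≤ 36 ∧ Q.dim = 5 ∧ Dmn u ∧ (∀ a ∈ C.Lam S, φ a ∈ C.Lam S) ∧
    (∀ p q, p + q = 2 → ∀ a ∈ C.typ S p q, φ a ∈ C.typ S p q) ∧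
    ∀ ω ∈ C.dg S 2, C.itg S ω = 1 → ∀ x y,
      (x ∈ C.typ X 3 1 ∧ y ∈ C.typ X 1 3) ∨ (x ∈ C.typ X 1 3 ∧ y ∈ C.typ X 3 1) →
        C.itg S (psi C u w w' ω (C.pb q x) * φ (psi C u w w' ω (C.pb q y))) = N * C.itg X (x * y)

/-- ISO -/
def IsoStmt : Prop := ∀ (G : MvPolynomial (Fin 6) ℂ) (F L K : Type) [Field F] [Algebra ℂ F]
  [Algebra.EssFiniteType ℂ F] [Field L] [Algebra ℂ L] [Field K] [Algebra ℂ K] (d : ℕ)
  (S : K3 F d) (X : Hyp 5 G K) (U : SV) (q : Hom U (sv X.P)), SmCub G → Nonempty (Lines G F L) →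
    Nonempty (Hyp 4 0 K) → Bim q → IsoOut C q (sv S.P)

/-- a class which dies on the fibre product is orthogonal to the class of the fibre product -/
def SupK : Prop := ∀ {A A' Y : SV} (μ : Hom A Y) (ν : Hom A' Y), Dmn μ → Dmn ν → 0 < Y.dim →
  ∀ y : C.H (A.prod A'), (∀ (G : SV) (g : Hom G (A.prod A')),
    (∀ z, μ.map ((fst A A').map (g.map z)) = ν.map ((snd A A').map (g.map z))) → C.pb g y = 0) →
      C.itg _ (y * C.pb (pmap μ ν) (C.push (dia Y) 1)) = 0

/-- a class which dies on the support of an effective divisor is killed by its class -/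
def PlK : Prop := ∀ (W : SV), ∀ a ∈ W.On, 0 ≤ a → ∀ z : C.H W,
  (∀ (G : SV) (v : Hom G W), (∀ q, ¬ At a (v.map q) 1) → C.pb v z = 0) → C.c1 W a * z = 0

/-- vanishing of a pull-back depends only on the image -/
def DomS : Prop := ∀ {A B V : SV} (g : Hom A V) (v : Hom B V),
  Set.range g.map ⊆ Set.range v.map → ∀ x, C.pb v x = 0 → C.pb g x = 0

/-- classes of type `(p, 0)` and `(0, p)` are birational invariants -/
def Bir0 : Prop := ∀ {W Y : SV} (h : Hom W Y), Bim h → ∀ (p : ℕ) (x : C.H W),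
  x ∈ C.typ W p 0 ∨ x ∈ C.typ W 0 p → C.pb h (C.push h x) = x

end Crest.Agent.X262.Hx56
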