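import Crest.Agent.X262.Hx56.Ln
import Crest.Agent.X262.Top.Defs
import Crest.Agent.X262.Brg.Hyp0
import Crest.Agent.X262.Lin62.Bez

/-!
# Row 262, ISO (helper56): the fields of the family of lines

* `isPF_lines` : `L` is the field of `S × S`;
* `exists_kap` : the moving point is the generic point of the cubic;
* `rf_map`     : functoriality of the rational function field;
* `num_e`, `num_N` : the two fibre degrees.
-/

set_option autoImplicit false
set_option linter.unusedSectionVars false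
set_option linter.style.haveILetI false

open scoped TensorProduct

noncomputable section

namespace Crest.Agent.X262.Hx56

open Crest.Agent.X277 Crest.Agent.X277.Lef Crest.Agent.X277.AN.G1 Crest.Agent.X277.BD
open Crest.Agent.X277.Cns Crest.Agent.R274.Prod1_134 Crest.Agent.X262.Top

variable {F L E E' K : Type} [Field F] [Algebra ℂ F] [Field L] [Algebra ℂ L] [Field E]
  [Algebra ℂ E] [Field E'] [Algebra ℂ E'] [Field K] [Algebra ℂ K]

theorem inj_of_trdeg {A : Type} [CommRing A] [IsDomain A] [Algebra ℂ A] (Φ : A →ₐ[ℂ] L)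
    (h : IntermediateField.adjoin ℂ (Set.range Φ) = ⊤) {d : ℕ} (hA : Algebra.trdeg ℂ A ≤ d)
    (hL : Algebra.trdeg ℂ L = d) : Function.Injective Φ := by
  have := Lin62.alg_of_top h
  obtain ⟨t, h1, h2⟩ := exists_isTranscendenceBasis_subset (R := ℂ) (Set.range Φ)
  choose x hx using fun i : t => h1 i.2
  have h3 : AlgebraicIndependent ℂ (Φ ∘ x) := by
    convert h2.1
    exact funext hx
  have h4 := h3.of_comp.isTranscendenceBasis_of_trdeg_le (hA.trans_lt Cardinal.natCast_lt_aleph0)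
    (hA.trans (hL.symm.trans h2.cardinalMk_eq_trdeg.symm).le)
  refine (injective_iff_map_eq_zero _).2 fun a ha => by_contra fun h0 => ?_
  obtain ⟨⟨b, hb⟩, h5, h6⟩ := (Submodule.ne_bot_iff _).1 (Ideal.comap_ne_bot_of_algebraic_mem
    (I := RingHom.ker Φ) h0 ha (h4.isAlgebraic.isAlgebraic a))
  rw [Algebra.adjoin_range_eq_range_aeval] at hb
  obtain ⟨p, rfl⟩ := hb
  have h7 : MvPolynomial.aeval (Φ ∘ x) p = 0 :=
    (MvPolynomial.comp_aeval_apply x Φ p).symm.trans h5
  exact h6 (Subtype.ext (by simp [algebraicIndependent_iff.1 h3 p h7]))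

variable {G : MvPolynomial (Fin 6) ℂ}

theorem isPF_lines (Λ : Lines G F L) (h : Algebra.trdeg ℂ (PF ℂ F F) = 4) :
    IsPF Λ.ι (Λ.τ.comp Λ.ι) := by
  have h1 : IntermediateField.adjoin ℂ
      (Set.range (Algebra.TensorProduct.productMap Λ.ι (Λ.τ.comp Λ.ι))) = ⊤ :=
    top_unique (Λ.gen ▸ IntermediateField.adjoin.mono _ _ _ (Set.union_subset
      (by rintro _ ⟨a, rfl⟩; exact ⟨a ⊗ₜ 1, by simp⟩) (by rintro _ ⟨a, rfl⟩; exact ⟨1 ⊗ₜ a, by simp⟩)))
  refine isPF_of_isFr ⟨inj_of_trdeg _ h1 (d := 4) ((trdeg_le_of_injective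
    (IsScalarTower.toAlgHom ℂ (F ⊗[ℂ] F) (PF ℂ F F)) (IsFractionRing.injective _ _)).trans h.le)
    Λ.dim, fun x => ?_⟩
  obtain ⟨r, hr, s, hs, e⟩ := IntermediateField.mem_adjoin_iff_div.1
    (h1 ▸ IntermediateField.mem_top : x ∈ IntermediateField.adjoin ℂ _)
  rw [← AlgHom.coe_range, Algebra.adjoin_eq] at hr hs
  obtain ⟨a, rfl⟩ := hr
  obtain ⟨b, rfl⟩ := hs
  exact ⟨a, b, e⟩

theorem exists_kap (X : Hyp 5 G K) (hG : G.IsHomogeneous 3) {x : Fin 6 → E} (h0 : x 0 ≠ 0)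
    (hx : Brg.Hyp0.GP G x) : ∃ κ : K →ₐ[ℂ] E, ∀ k l, κ (X.y k / X.y l) = x k / x l := by
  have h1 : IntermediateField.adjoin ℂ (Set.range ((X.y 0)⁻¹ • X.y)) = ⊤ := top_unique fun f _ => by
    obtain ⟨a, ha, c, hc, -, rfl⟩ := X.frac f
    have h2 : chart ℂ X.y 0 ≤
        (IntermediateField.adjoin ℂ (Set.range ((X.y 0)⁻¹ • X.y))).toSubalgebra :=
      Algebra.adjoin_le (by
        rintro _ ⟨i, rfl⟩
        exact IntermediateField.subset_adjoin _ _ ⟨i, (div_eq_inv_mul _ _).symm⟩)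
    exact div_mem (h2 ha) (h2 hc)
  obtain ⟨κ, hκ⟩ := Lin62.exists_hom h1 (ρ := (x 0)⁻¹ • x) fun q => by
    have h3 := SetLike.ext_iff.1 ((hx.ker hG h0).trans
      (Brg.Hyp0.GP.ker (G := G) (y := X.y) X.ker hG (X.y_ne 0)).symm) q
    rwa [RingHom.mem_ker, RingHom.mem_ker, Subtype.ext_iff, Subtype.ext_iff, Brg.Hyp0.coe_pres,
      Brg.Hyp0.coe_pres] at h3
  refine ⟨κ, fun k l => ?_⟩
  rw [← mul_div_mul_left (X.y k) _ (inv_ne_zero (X.y_ne 0)), ← mul_div_mul_left (x k) _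
    (inv_ne_zero h0), map_div₀]
  exact congrArg₂ _ (hκ k) (hκ l)

/-- functoriality of the rational function field -/
theorem rf_map {π : F →ₐ[ℂ] E} {t : E} (h : IsRF π t) {π' : L →ₐ[ℂ] E'} {t' : E'} (h' : IsRF π' t')
    (ρ : F →ₐ[ℂ] L) : ∃ σ : E →ₐ[ℂ] E', (∀ a, σ (π a) = π' (ρ a)) ∧ σ t = t' := by
  have hi : Function.Injective (evp (π'.comp ρ) t') := (injective_iff_map_eq_zero _).2 fun p hp =>
    (Polynomial.map_eq_zero (ρ : F →+* L)).1 (h'.eq_zero (by
      rw [evp_apply, Polynomial.eval₂_map]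
      exact hp))
  exact ⟨h.lift _ _ hi, h.lift_π _ _ hi, h.lift_t _ _ hi⟩

theorem eft_rat (L : Type) [Field L] : Algebra.EssFiniteType L (RatFunc L) :=
  have := Algebra.EssFiniteType.of_isLocalization (R := Polynomial L) (RatFunc L)
    (nonZeroDivisors (Polynomial L))
  Algebra.EssFiniteType.comp L (Polynomial L) (RatFunc L)

theorem eft_rat' (L : Type) [Field L] [Algebra ℂ L] [Algebra.EssFiniteType ℂ L] :
    Algebra.EssFiniteType ℂ (RatFunc L) :=
  have := eft_rat L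
  Algebra.EssFiniteType.comp ℂ L (RatFunc L)

theorem dim_rat (L : Type) [Field L] [Algebra ℂ L] [Algebra.EssFiniteType ℂ L] :
    dim ℂ (RatFunc L) = dim ℂ L + 1 := by
  have : CharZero L := charZero_of_injective_algebraMap (algebraMap ℂ L).injective
  have := eft_rat L
  have := eft_rat' L
  rw [Loc.dim_tower ℂ L (RatFunc L), Loc.dim_rat RatFunc.transcendental_X RatFunc.adjoin_X]

theorem lin_mxf {k F : Type} [Field k] [Field F] [Algebra k F] {ι : Type} [Fintype ι] {s : ι → F}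
    (h0 : ∃ i, s i ≠ 0) {c : F} (hc : c ≠ 0) : Lin (mxf k fun i => c * s i) (mxf k s) :=
  ⟨c, hc, (eq_mxf (fun i => by
    rw [mul_comm]
    exact mul_mem_Sec (mem_Sec_mxf s i) (mem_Sec_pr c)) fun V => by
      obtain ⟨i, hi⟩ := exists_val_mxf (k := k) h0 V
      exact ⟨i, by rw [val_add, val_pr hc, ← hi, map_mul, mul_comm]⟩).symm⟩

/-- the inclusion of the constants -/
def cst (L : Type) [Field L] [Algebra ℂ L] : L →ₐ[ℂ] RatFunc L :=
  IsScalarTower.toAlgHom ℂ L (RatFunc L)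

theorem pt_eq (Λ : Lines G F L) : Λ.pt = mv (cst L) RatFunc.X Λ.p Λ.q := rfl

theorem pt_zero (Λ : Lines G F L) : Λ.pt 0 = 1 := by simp [Lines.pt, Lines.p, Lines.q]

theorem pt_one (Λ : Lines G F L) : Λ.pt 1 = RatFunc.X := by simp [Lines.pt, Lines.p, Lines.q]

theorem plk_one (Λ : Lines G F L) : pk Λ.p Λ.q (0, 1) = 1 := by simp [pk, Lines.p, Lines.q]

/-- a line has degree one -/
theorem num_e [Algebra.EssFiniteType ℂ L] [Algebra.EssFiniteType ℂ (RatFunc L)] (Λ : Lines G F L)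
    {l : List (BD ℂ L)} (hl : l.length = dim ℂ L) :
    bnum (Λ.xi :: l.map (pb (cst L))) = bnum l := by
  have : CharZero L := charZero_of_injective_algebraMap (algebraMap ℂ L).injective
  have := eft_rat L
  have h1 := Loc.bnum_prj (k := ℂ) (K := L) [Λ.xi] hl
  have h2 : mxf L Λ.pt = mxf L ![1, RatFunc.X] := by
    refine Lin62.mxf_congr ⟨0, pt_zero Λ ▸ one_ne_zero⟩ (fun i => ?_) fun j => ?_
    · have h3 : Λ.pt i = Λ.p i • (1 : RatFunc L) + Λ.q i • RatFunc.X := by
        rw [Lines.pt, Algebra.smul_def, Algebra.smul_def, mul_one, mul_comm]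
        rfl
      rw [h3]
      exact add_mem (Submodule.smul_mem _ _ (Submodule.subset_span ⟨0, rfl⟩))
        (Submodule.smul_mem _ _ (Submodule.subset_span ⟨1, rfl⟩))
    · fin_cases j
      exacts [Submodule.subset_span ⟨0, pt_zero Λ⟩, Submodule.subset_span ⟨1, pt_one Λ⟩]
  rw [List.map_singleton, Lines.xi, up_mxf, h2,
    Loc.bnum_pole_rat RatFunc.transcendental_X RatFunc.adjoin_X, mul_one] at h1
  exact h1

/-- the degree of a class on the fibres -/
theorem num_N [Algebra.EssFiniteType ℂ K] [Algebra.EssFiniteType ℂ E] (κ : K →ₐ[ℂ] E) (g : BD ℂ E)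
    {l : List (BD ℂ K)} (hl : l.length = dim ℂ K) :
    ∃ N : ℤ, bnum (g :: l.map (pb κ)) = bnum l * N := by
  have : CharZero K := charZero_of_injective_algebraMap (algebraMap ℂ K).injective
  letI := κ.toRingHom.toAlgebra
  haveI : IsScalarTower ℂ K E := IsScalarTower.of_algebraMap_eq fun c => (κ.commutes c).symm
  haveI := Algebra.EssFiniteType.of_comp ℂ K E
  exact ⟨_, Loc.bnum_prj (k := ℂ) (K := K) [g] hl⟩

end Crest.Agent.X262.Hx56
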