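import Crest.Agent.X262.Hx56.Defs
import Crest.Agent.X262.Form88.Geo

/-!
# Row 262, ISO (helper56): the formal part

* `Ge q S`  : models of the family of lines, of the universal line and of its fibre square;
* `Ge.bcw`, `Ge.dia` : base change and the class of the diagonal, up to a constant;
* `Ge.bb`   : the Beauville-Donagi formula;
* `Ge.out`  : `IsoOut`.
-/

set_option autoImplicit false

noncomputable section

namespace Crest.Agent.X262.Hx56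

open Crest.Agent.X277 Crest.Agent.X277.Lef Crest.Agent.X277.AN.G1 Crest.Agent.X277.BD
open Crest.Agent.X277.BD.Br (At)
open Crest.Agent.X262.Coh Crest.Agent.X262.Form88 Crest.Agent.R274.Prod1_134

/-- the geometry of the family of lines -/
structure Ge {U X : SV} (q : Hom U X) (S : SV) where
  /-- the parameter space -/
  Y : SV
  /-- the universal line -/
  P : SV
  /-- a model of the universal line with the swap -/
  P' : SV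
  /-- the fibre square -/
  W : SV
  /-- the model of `S × S` -/
  r : Hom Y (S.prod S)
  /-- the family -/
  p : Hom P Y
  /-- the moving point on `U` -/
  uU : Hom P U
  /-- the moving point -/
  u : Hom P X
  /-- the identity -/
  n1 : Hom P' P
  /-- the swap -/
  n2 : Hom P' P
  /-- the first projection -/
  e1 : Hom W P
  /-- the second projection -/
  e2 : Hom W P
  /-- the Plücker divisor -/
  g : BD ℂ Y.F
  /-- the diagonal -/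
  D : BD ℂ W.F
  /-- the degree of the curve of lines through a point -/
  N : ℤ
  dX : X.dim = 4
  dS : S.dim = 2
  dY : Y.dim = 4
  dP : P.dim = 5
  dW : W.dim = 6
  r_bim : Bim r
  p_dmn : Dmn p
  uU_dmn : Dmn uU
  qu : ∀ z, q.map (uU.map z) = u.map z
  n1_bim : Bim n1
  n2_bim : Bim n2
  nu : ∀ z, u.map (n1.map z) = u.map (n2.map z)
  nr1 : ∀ z, (fst S S).map (r.map (p.map (n1.map z))) = (snd S S).map (r.map (p.map (n2.map z)))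
  nr2 : ∀ z, (snd S S).map (r.map (p.map (n1.map z))) = (fst S S).map (r.map (p.map (n2.map z)))
  ee : ∀ w, p.map (e1.map w) = p.map (e2.map w)
  rng : ∀ z1 z2, p.map z1 = p.map z2 → ∃ w, p.map (e1.map w) = p.map z1 ∧
    u.map (e1.map w) = u.map z1 ∧ u.map (e2.map w) = u.map z2
  g_on : g ∈ Y.On
  D_on : D ∈ W.On
  D_nn : 0 ≤ D
  supp : ∀ w : W.Pt, ¬ At D w 1 → u.map (e1.map w) = u.map (e2.map w)
  cD : ∀ C : Th, C.MAN → C.c1 W D = C.pb e1 (C.pb u (C.hc X)) + C.pb e2 (C.pb u (C.hc X)) -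
    C.pb e1 (C.pb p (C.c1 Y g))
  ne : ∀ C : Th, C.MAN → C.itg P (C.pb p (C.hc Y ^ 4) * C.pb u (C.hc X)) = C.itg Y (C.hc Y ^ 4)
  nN : ∀ C : Th, C.MAN →
    C.itg P (C.pb p (C.c1 Y g) * C.pb u (C.hc X ^ 4)) = N * C.itg X (C.hc X ^ 4)
  N_pos : 0 < N
  N_le : N ≤ 36

variable {C : Th}

/-- two functionals, the kernel of the first in the kernel of the second -/
theorem exists_mul {M : Type*} [AddCommGroup M] [Module ℂ M] (T : Submodule ℂ M)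
    (f l : M →ₗ[ℂ] ℂ) (h : ∀ z ∈ T, f z = 0 → l z = 0) : ∃ c, ∀ z ∈ T, l z = c * f z := by
  by_cases h0 : ∃ z ∈ T, f z ≠ 0
  · obtain ⟨z₀, h1, h2⟩ := h0
    refine ⟨l z₀ / f z₀, fun z hz => ?_⟩
    have := h (z - (f z / f z₀) • z₀) (T.sub_mem hz (T.smul_mem _ h1)) (by
      rw [map_sub, map_smul, smul_eq_mul, div_mul_cancel₀ _ h2, sub_self])
    rw [map_sub, map_smul, smul_eq_mul, sub_eq_zero] at this
    rw [this]
    ring
  · push Not at h0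
    exact ⟨0, fun z hz => by rw [zero_mul, h z hz (h0 z hz)]⟩

/-- a morphism to a triple product -/
abbrev tri {Z Y X : SV} (a : Hom Z Y) (b c : Hom Z X) : Hom Z (Y.prod (X.prod X)) :=
  pair a (pair b c)

/-- a product class on a triple product -/
def trc (C : Th) {Y X : SV} (w : C.H Y) (x y : C.H X) : C.H (Y.prod (X.prod X)) :=
  C.pb (fst _ _) w * C.pb (snd _ _) (C.pb (fst X X) x * C.pb (snd X X) y)

theorem pb_trc (hM : C.MAN) {Z Y X : SV} (a : Hom Z Y) (b c : Hom Z X) (w : C.H Y) (x y : C.H X) :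
    C.pb (tri a b c) (trc C w x y) = C.pb a w * C.pb b x * C.pb c y := by
  rw [trc, map_mul, hM.pb_tri (fst_pair _ _), hM.pb_tri (snd_pair _ _), map_mul,
    hM.pb_tri (fst_pair _ _), hM.pb_tri (snd_pair _ _), mul_assoc]

theorem trc_dg (hM : C.MAN) {Y X : SV} {i j k : ℕ} {w : C.H Y} {x y : C.H X} (hw : w ∈ C.dg Y i)
    (hx : x ∈ C.dg X j) (hy : y ∈ C.dg X k) : trc C w x y ∈ C.dg _ (i + (j + k)) :=
  hM.dg_mul _ (hM.pb_dg _ _ hw) (hM.pb_dg _ _ (hM.dg_mul _ (hM.pb_dg _ _ hx) (hM.pb_dg _ _ hy)))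

theorem tri_eq {Z Z' Y X : SV} {a : Hom Z Y} {b c : Hom Z X} {a' : Hom Z' Y} {b' c' : Hom Z' X}
    {z : Z.Pt} {z' : Z'.Pt} (h1 : a.map z = a'.map z') (h2 : b.map z = b'.map z')
    (h3 : c.map z = c'.map z') : (tri a b c).map z = (tri a' b' c').map z' := by
  rw [Cns.pair_map, Cns.pair_map, Cns.pair_map, Cns.pair_map, h1, h2, h3]

/-- Künneth in degree two -/
theorem kun_one (hA : C.Ax) {S : SV} (hd : S.dim = 2) (hR : S.R1 = ⊥) {z : C.H (S.prod S)}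
    (hz : z ∈ C.dg _ 1) :
    ∃ a ∈ C.dg S 1, ∃ b ∈ C.dg S 1, z = C.pb (fst S S) a + C.pb (snd S S) b := by
  have hM := hA.man
  set T := (C.dg S 1).map (C.pb (fst S S)).toLinearMap ⊔ (C.dg S 1).map (C.pb (snd S S)).toLinearMap
  have h1 : z ∈ T ⊔ ⨆ (k) (_ : k ≠ 1), C.dg (S.prod S) k := by
    refine Submodule.span_le.2 ?_ (hA.kun S S hd hR z)
    rintro _ ⟨a, b, rfl⟩
    refine hM.ind (p := fun a => C.pb (fst S S) a * C.pb (snd S S) b ∈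
      T ⊔ ⨆ (k) (_ : k ≠ 1), C.dg (S.prod S) k) (by simp) (fun i a ha => ?_)
      (fun a a' h h' => by rw [map_add, add_mul]; exact add_mem h h') a
    refine hM.ind (p := fun b => C.pb (fst S S) a * C.pb (snd S S) b ∈
      T ⊔ ⨆ (k) (_ : k ≠ 1), C.dg (S.prod S) k) (by simp) (fun j b hb => ?_)
      (fun a a' h h' => by rw [map_add, mul_add]; exact add_mem h h') b
    by_cases hij : i + j = 1
    · refine Submodule.mem_sup_left ?_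
      rcases Nat.eq_zero_or_pos i with rfl | hi
      · obtain rfl : j = 1 := by omega
        obtain ⟨c, rfl⟩ := hM.dg_zero S a ha
        rw [AlgHom.commutes, ← Algebra.smul_def]
        exact T.smul_mem _ (Submodule.mem_sup_right ⟨b, hb, rfl⟩)
      · obtain rfl : j = 0 := by omega
        obtain rfl : i = 1 := by omega
        obtain ⟨c, rfl⟩ := hM.dg_zero S b hb
        rw [AlgHom.commutes, mul_comm, ← Algebra.smul_def]
        exact T.smul_mem _ (Submodule.mem_sup_left ⟨a, ha, rfl⟩)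
    · exact Submodule.mem_sup_right (Submodule.mem_iSup_of_mem (i + j)
        (Submodule.mem_iSup_of_mem hij (hM.dg_mul _ (hM.pb_dg _ _ ha) (hM.pb_dg _ _ hb))))
  obtain ⟨t, ht, z', hz', rfl⟩ := Submodule.mem_sup.1 h1
  obtain ⟨_, ⟨a, ha, rfl⟩, _, ⟨b, hb, rfl⟩, rfl⟩ := Submodule.mem_sup.1 ht
  refine ⟨a, ha, b, hb, ?_⟩
  have h2 : z' ∈ C.dg _ 1 := by
    have := sub_mem hz (add_mem (hM.pb_dg (fst S S) a ha) (hM.pb_dg (snd S S) b hb))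
    simpa using this
  rw [Submodule.disjoint_def.1 ((hM.dg_int _).submodule_iSupIndep 1) z' h2 hz', add_zero]
  rfl

namespace Ge

variable {U X S : SV} {q : Hom U X} (Γ : Ge q S) (hA : C.Ax)

/-- the Abel-Jacobi map -/
def al (C : Th) (x : C.H X) : C.H Γ.Y := C.push Γ.p (C.pb Γ.u x)

/-- the trilinear form on the fibre square -/
def J (C : Th) (w : C.H Γ.Y) (x y : C.H X) : C.H Γ.W :=
  C.pb Γ.e1 (C.pb Γ.p w) * C.pb Γ.e1 (C.pb Γ.u x) * C.pb Γ.e2 (C.pb Γ.u y)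

/-- the fibre square in the triple product -/
abbrev ΦW : Hom Γ.W (Γ.Y.prod (X.prod X)) :=
  tri (Mor.comp Γ.p Γ.e1) (Mor.comp Γ.u Γ.e1) (Mor.comp Γ.u Γ.e2)

include hA

theorem pb_ΦW (w : C.H Γ.Y) (x y : C.H X) : C.pb Γ.ΦW (trc C w x y) = Γ.J C w x y := by
  rw [pb_trc hA.man, hA.man.pb_comp, hA.man.pb_comp, hA.man.pb_comp, J]

/-- base change, up to a constant -/
theorem bcw (hS : SupK C) (hD : DomS C) : ∃ c : ℂ, ∀ i j k, i + (j + k) = 6 →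
    ∀ w ∈ C.dg Γ.Y i, ∀ x ∈ C.dg X j, ∀ y ∈ C.dg X k,
      C.itg _ (w * (Γ.al C x * Γ.al C y)) = c * C.itg _ (Γ.J C w x y) := by
  have hM := hA.man
  have hP := hA.pd
  set Φ : Hom (Γ.P.prod Γ.P) (Γ.Y.prod (X.prod X)) := tri (Mor.comp Γ.p (fst _ _))
    (Mor.comp Γ.u (fst _ _)) (Mor.comp Γ.u (snd _ _)) with hΦ
  obtain ⟨c, hc⟩ := exists_mul (C.dg _ 6) (C.itg _ ∘ₗ (C.pb Γ.ΦW).toLinearMap)
    (C.itg _ ∘ₗ LinearMap.mulRight ℂ (C.pb (pmap Γ.p Γ.p) (C.push (dia Γ.Y) 1)) ∘ₗ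
      (C.pb Φ).toLinearMap) fun z hz h0 => by
    have h1 : C.pb Γ.ΦW z = 0 := hP.top_zero hM (Γ.dW ▸ hM.pb_dg _ z hz) h0
    refine hS Γ.p Γ.p Γ.p_dmn Γ.p_dmn (by rw [Γ.dY]; norm_num) _ fun G g hg => ?_
    change C.pb g (C.pb Φ z) = 0
    rw [← hM.pb_comp]
    refine hD _ Γ.ΦW ?_ z h1
    rintro _ ⟨t, rfl⟩
    obtain ⟨w, h2, h3, h4⟩ := Γ.rng _ _ (hg t)
    refine ⟨w, ?_⟩
    rw [Mor.comp_map]
    exact tri_eq (by rw [Mor.comp_map, Mor.comp_map, h2]) (by rw [Mor.comp_map, Mor.comp_map, h3])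
      (by rw [Mor.comp_map, Mor.comp_map, h4])
  refine ⟨c, fun i j k h w hw x hx y hy => ?_⟩
  have h1 := hc _ (h ▸ trc_dg hM hw hx hy)
  change C.itg _ (C.pb Φ _ * _) = c * C.itg _ (C.pb Γ.ΦW _) at h1
  rw [Γ.pb_ΦW hA, hΦ, pb_trc hM, hM.pb_comp, hM.pb_comp, hM.pb_comp, ← map_mul, hA.diag,
    hP.push_proj', mul_assoc] at h1
  exact h1

/-- the class of the diagonal, up to a constant -/
theorem dia (hL : PlK C) (hD : DomS C) : ∃ c : ℂ, ∀ i j k, i + (j + k) = 5 →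
    ∀ w ∈ C.dg Γ.Y i, ∀ x ∈ C.dg X j, ∀ y ∈ C.dg X k,
      C.itg _ (C.c1 Γ.W Γ.D * Γ.J C w x y) = c * C.itg _ (C.pb Γ.p w * C.pb Γ.u (x * y)) := by
  have hM := hA.man
  have hP := hA.pd
  obtain ⟨c, hc⟩ := exists_mul (C.dg _ 5) (C.itg _ ∘ₗ (C.pb (tri Γ.p Γ.u Γ.u)).toLinearMap)
    (C.itg _ ∘ₗ LinearMap.mulLeft ℂ (C.c1 Γ.W Γ.D) ∘ₗ (C.pb Γ.ΦW).toLinearMap) fun z hz h0 => by
    have h1 : C.pb (tri Γ.p Γ.u Γ.u) z = 0 := hP.top_zero hM (Γ.dP ▸ hM.pb_dg _ z hz) h0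
    change C.itg _ (_ * C.pb Γ.ΦW z) = 0
    rw [hL Γ.W Γ.D Γ.D_on Γ.D_nn _ fun G v hv => ?_, map_zero]
    rw [← hM.pb_comp]
    refine hD _ _ ?_ z h1
    rintro _ ⟨t, rfl⟩
    refine ⟨Γ.e1.map (v.map t), ?_⟩
    rw [Mor.comp_map]
    exact tri_eq (by rw [Mor.comp_map]) (by rw [Mor.comp_map])
      (by rw [Mor.comp_map, Γ.supp _ (hv t)])
  refine ⟨c, fun i j k h w hw x hx y hy => ?_⟩
  have h1 := hc _ (h ▸ trc_dg hM hw hx hy)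
  change C.itg _ (_ * C.pb Γ.ΦW _) = c * C.itg _ (C.pb (tri Γ.p Γ.u Γ.u) _) at h1
  rwa [Γ.pb_ΦW hA, pb_trc hM, mul_assoc, ← map_mul] at h1

theorem al_hc : Γ.al C (C.hc X) = 1 := by
  have hM := hA.man
  obtain ⟨e, he⟩ := hM.dg_zero _ _ (hA.pd.push_dg hM Γ.p (j := 0) (by rw [Γ.dY, Γ.dP])
    (hM.pb_dg Γ.u _ (hM.hc_dg X)))
  have h1 := Γ.ne C hM
  have h2 := hM.itg_hc Γ.Y
  rw [Γ.dY] at h2
  rw [← hA.pd.push_spec', he, mul_comm, ← Algebra.smul_def, map_smul, h2, smul_eq_mul,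
    mul_eq_right₀ Γ.Y.dgr_ne] at h1
  rw [al, he, h1, map_one]

theorem push_g : C.push Γ.u (C.pb Γ.p (C.c1 Γ.Y Γ.g)) = algebraMap ℂ _ Γ.N := by
  have hM := hA.man
  obtain ⟨e, he⟩ := hM.dg_zero _ _ (hA.pd.push_dg hM Γ.u (j := 0) (by rw [Γ.dX, Γ.dP])
    (hM.pb_dg Γ.p _ (hM.c1_dg _ _ Γ.g_on)))
  have h1 := Γ.nN C hM
  have h2 := hM.itg_hc X
  rw [Γ.dX] at h2
  rw [← hA.pd.push_spec, he, ← Algebra.smul_def, map_smul, h2, smul_eq_mul,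
    mul_left_inj' X.dgr_ne] at h1
  rw [he, h1]

/-- **the Beauville-Donagi formula** -/
theorem bb (hS : SupK C) (hL : PlK C) (hD : DomS C) {x y : C.H X} (hx : x ∈ C.dg X 2)
    (hy : y ∈ C.dg X 2) (hx0 : C.hc X * x = 0) (hy0 : C.hc X * y = 0) :
    C.itg _ (C.c1 Γ.Y Γ.g ^ 2 * (Γ.al C x * Γ.al C y)) = -Γ.N * C.itg X (x * y) := by
  have hM := hA.man
  have hP := hA.pd
  obtain ⟨c, hc⟩ := Γ.bcw hA hS hD
  obtain ⟨c', hc'⟩ := Γ.dia hA hL hD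
  have hg := hM.c1_dg _ _ Γ.g_on
  have h2 := hM.itg_hc Γ.Y
  rw [Γ.dY] at h2
  have h3 := hc 4 1 1 rfl _ (hM.hc_pow _ 4) _ (hM.hc_dg X) _ (hM.hc_dg X)
  have h4 := hc' 4 1 0 rfl _ (hM.hc_pow _ 4) _ (hM.hc_dg X) _ (hM.dg_one X)
  have h5 : C.c1 Γ.Y Γ.g * C.hc Γ.Y ^ 4 = 0 := (Submodule.eq_bot_iff _).1
    (hM.dg_gt _ (k := 1 + 4) (by rw [Γ.dY]; norm_num)) _ (hM.dg_mul _ hg (hM.hc_pow _ 4))
  have h6 : C.pb Γ.u (C.hc X) * (C.pb Γ.p (C.hc Γ.Y ^ 4) * C.pb Γ.u (C.hc X)) = 0 :=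
    (Submodule.eq_bot_iff _).1 (hM.dg_gt _ (k := 1 + (4 + 1)) (by rw [Γ.dP]; norm_num)) _
      (hM.dg_mul _ (hM.pb_dg _ _ (hM.hc_dg X)) (hM.dg_mul _ (hM.pb_dg _ _ (hM.hc_pow _ 4))
        (hM.pb_dg _ _ (hM.hc_dg X))))
  have h7 : C.c1 Γ.W Γ.D * Γ.J C (C.hc Γ.Y ^ 4) (C.hc X) 1 =
      Γ.J C (C.hc Γ.Y ^ 4) (C.hc X) (C.hc X) := by
    have a1 := congrArg (C.pb Γ.e1) h6
    have a2 := congrArg (fun z => C.pb Γ.e1 (C.pb Γ.p z)) h5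
    simp only [map_mul, map_zero] at a1 a2
    rw [Γ.cD C hM, J, J, map_one, map_one]
    linear_combination a1 - C.pb Γ.e1 (C.pb Γ.u (C.hc X)) * a2
  rw [h7, mul_one, Γ.ne C hM, h2] at h4
  rw [Γ.al_hc hA, mul_one, mul_one, h2, h4, ← mul_assoc, eq_comm,
    mul_eq_right₀ Γ.Y.dgr_ne] at h3
  have h8 : C.c1 Γ.W Γ.D * Γ.J C (C.c1 Γ.Y Γ.g) x y = -Γ.J C (C.c1 Γ.Y Γ.g ^ 2) x y := by
    have a1 := congrArg (fun z => C.pb Γ.e1 (C.pb Γ.u z)) hx0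
    have a2 := congrArg (fun z => C.pb Γ.e2 (C.pb Γ.u z)) hy0
    simp only [map_mul, map_zero] at a1 a2
    rw [Γ.cD C hM, J, J, map_pow, map_pow]
    linear_combination C.pb Γ.e1 (C.pb Γ.p (C.c1 Γ.Y Γ.g)) * C.pb Γ.e2 (C.pb Γ.u y) * a1 +
      C.pb Γ.e1 (C.pb Γ.p (C.c1 Γ.Y Γ.g)) * C.pb Γ.e1 (C.pb Γ.u x) * a2
  have h9 := hc' 1 2 2 rfl _ hg x hx y hy
  rw [h8, map_neg, ← hP.push_spec, Γ.push_g hA, ← Algebra.smul_def, map_smul, smul_eq_mul] at h9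
  rw [hc 2 2 2 rfl _ (by simpa using hM.dg_pow hg 2) x hx y hy]
  linear_combination -c * h9 - Γ.N * C.itg X (x * y) * h3

/-- the first projection to the surface -/
abbrev r1 : Hom Γ.Y S := Mor.comp (fst S S) Γ.r

/-- the second projection to the surface -/
abbrev r2 : Hom Γ.Y S := Mor.comp (snd S S) Γ.r

/-- the correspondence from the cubic to the surface -/
abbrev ps (C : Th) (ω : C.H S) (x : C.H X) : C.H S :=
  psi C Γ.uU (Mor.comp Γ.r1 Γ.p) (Mor.comp Γ.r2 Γ.p) ω (C.pb q x)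

theorem ps_eq (ω : C.H S) (x : C.H X) :
    Γ.ps C ω x = C.push Γ.r1 (Γ.al C x * C.pb Γ.r2 ω) := by
  rw [ps, psi_apply, hA.man.pb_tri Γ.qu, hA.pd.push_comp hA.man, hA.man.pb_comp _ Γ.p,
    hA.pd.push_proj, al]

theorem ps_sym (ω : C.H S) (x : C.H X) :
    C.push Γ.r1 (Γ.al C x * C.pb Γ.r2 ω) = C.push Γ.r2 (Γ.al C x * C.pb Γ.r1 ω) := by
  have hM := hA.man
  have hP := hA.pd
  have h1 : ∀ s, C.pb Γ.n1 (C.pb Γ.p (C.pb Γ.r1 s)) = C.pb Γ.n2 (C.pb Γ.p (C.pb Γ.r2 s)) :=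
    fun s => by
      simp only [← hM.pb_comp]
      exact hM.pb_eq (fun z => by simp only [Mor.comp_map, Γ.nr1]) s
  have h2 : ∀ s, C.pb Γ.n1 (C.pb Γ.p (C.pb Γ.r2 s)) = C.pb Γ.n2 (C.pb Γ.p (C.pb Γ.r1 s)) :=
    fun s => by
      simp only [← hM.pb_comp]
      exact hM.pb_eq (fun z => by simp only [Mor.comp_map, Γ.nr2]) s
  refine hP.ext fun s => ?_
  rw [hP.push_spec, hP.push_spec, mul_assoc, mul_assoc, al, hP.push_spec, hP.push_spec,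
    ← hP.itg_pb_bim hM Γ.n1_bim, ← hP.itg_pb_bim hM Γ.n2_bim]
  simp only [map_mul]
  rw [h1, h2, hM.pb_sq Γ.nu]

/-- the Abel-Jacobi image of a class of type `(3,1)` or `(1,3)` is symmetric -/
theorem al_eq (hB : Bir0 C) (hR : S.R1 = ⊥) {ω : C.H S} (hω : ω ∈ C.dg S 2) (h1 : C.itg S ω = 1)
    {x : C.H X} (hx : x ∈ C.typ X 3 1 ∨ x ∈ C.typ X 1 3) :
    Γ.al C x = C.pb Γ.r1 (Γ.ps C ω x) + C.pb Γ.r2 (Γ.ps C ω x) := by
  have hM := hA.man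
  have hP := hA.pd
  have hT := hA.typ
  have h2 : Γ.al C x ∈ C.typ _ 2 0 ∨ Γ.al C x ∈ C.typ _ 0 2 := hx.imp
    (fun h => hT.push_typ hM hP _ (by rw [Γ.dY, Γ.dP]) (by rw [Γ.dY, Γ.dP]) (hT.pb _ _ h))
    fun h => hT.push_typ hM hP _ (by rw [Γ.dY, Γ.dP]) (by rw [Γ.dY, Γ.dP]) (hT.pb _ _ h)
  have h3 : Γ.al C x ∈ C.dg _ 1 := h2.elim (fun h => hT.le _ rfl h) fun h => hT.le _ rfl h
  obtain ⟨a, ha, b, hb, h4⟩ := kun_one hA Γ.dS hR
    (hP.push_dg hM Γ.r (j := 1) (by rw [Γ.r_bim.dim_eq, add_comm]) h3)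
  have h5 : Γ.al C x = C.pb Γ.r1 a + C.pb Γ.r2 b := by
    rw [← hB Γ.r Γ.r_bim 2 _ h2, h4, map_add, hM.pb_comp, hM.pb_comp]
  have h6 : ∀ a ∈ C.dg S 1, a * ω = 0 := fun a ha => (Submodule.eq_bot_iff _).1
    (hM.dg_gt _ (k := 1 + 2) (by rw [Γ.dS]; norm_num)) _ (hM.dg_mul _ ha hω)
  have h7 : ∀ a b, C.itg _ (C.pb Γ.r1 a * C.pb Γ.r2 b) = C.itg S a * C.itg S b := fun a b => by
    rw [hM.pb_comp, hM.pb_comp, ← map_mul, hP.itg_pb_bim hM Γ.r_bim, hA.fub]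
  have h8 : C.push Γ.r1 (Γ.al C x * C.pb Γ.r2 ω) = a := hP.ext fun s => by
    rw [hP.push_spec, h5, add_mul, ← map_mul, h6 b hb, map_zero, add_zero, mul_right_comm,
      ← map_mul, h7, h1, mul_one]
  have h9 : C.push Γ.r2 (Γ.al C x * C.pb Γ.r1 ω) = b := hP.ext fun s => by
    rw [hP.push_spec, h5, add_mul, ← map_mul, h6 a ha, map_zero, zero_add, mul_right_comm,
      ← map_mul, mul_comm, h7, h1, one_mul]
  have h10 : b = a := by rw [← h9, ← Γ.ps_sym hA, h8]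
  rw [Γ.ps_eq hA, h8, h5, h10]

/-- the symmetric pull-back -/
def sy (C : Th) : C.H S →ₗ[ℂ] C.H Γ.Y := (C.pb Γ.r1).toLinearMap + (C.pb Γ.r2).toLinearMap

/-- the endomorphism which represents the Beauville form -/
def ph (C : Th) : C.H S →ₗ[ℂ] C.H S :=
  (C.push Γ.r1 + C.push Γ.r2) ∘ₗ LinearMap.mulLeft ℂ (C.c1 Γ.Y Γ.g ^ 2) ∘ₗ Γ.sy C

theorem ph_spec (a b : C.H S) :
    C.itg S (a * Γ.ph C b) = C.itg _ (C.c1 Γ.Y Γ.g ^ 2 * (Γ.sy C a * Γ.sy C b)) := by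
  change C.itg S (a * (C.push Γ.r1 _ + C.push Γ.r2 _)) = _
  rw [mul_add, map_add, hA.pd.push_spec', hA.pd.push_spec', ← map_add, ← add_mul, mul_left_comm]
  rfl

theorem ph_typ {i j : ℕ} {a : C.H S} (ha : a ∈ C.typ S i j) : Γ.ph C a ∈ C.typ S i j := by
  have hT := hA.typ
  have hg := hT.c1 _ _ Γ.g_on
  have h1 : C.c1 Γ.Y Γ.g ^ 2 * Γ.sy C a ∈ C.typ _ (1 + 1 + i) (1 + 1 + j) :=
    hT.mul _ (sq (C.c1 Γ.Y Γ.g) ▸ hT.mul _ hg hg) (add_mem (hT.pb _ a ha) (hT.pb _ a ha))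
  exact add_mem
    (hT.push_typ hA.man hA.pd _ (by rw [Γ.dY, Γ.dS]; omega) (by rw [Γ.dY, Γ.dS]; omega) h1)
    (hT.push_typ hA.man hA.pd _ (by rw [Γ.dY, Γ.dS]; omega) (by rw [Γ.dY, Γ.dS]; omega) h1)

theorem ph_lam {a : C.H S} (ha : a ∈ C.Lam S) : Γ.ph C a ∈ C.Lam S := by
  have hM := hA.man
  have hL := hA.lam
  have hs : ∀ a ∈ C.Lam S, Γ.sy C a ∈ C.Lam _ := fun a ha => add_mem (hL.pb _ a ha) (hL.pb _ a ha)
  have hg := hL.c1 _ _ Γ.g_on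
  have h1 : C.c1 Γ.Y Γ.g ^ 2 * Γ.sy C a ∈ C.dg _ (2 * 1 + 1) :=
    hM.dg_mul _ (hM.dg_pow (hL.dg _ _ hg) 2) (hL.dg _ _ (hs a ha))
  refine (hA.uni S Γ.dS).2 _ (add_mem (hA.pd.push_dg hM _ (by rw [Γ.dY, Γ.dS]) h1)
    (hA.pd.push_dg hM _ (by rw [Γ.dY, Γ.dS]) h1)) fun y hy => ?_
  obtain ⟨m, hm⟩ := hL.itg _ [C.c1 Γ.Y Γ.g, C.c1 Γ.Y Γ.g, Γ.sy C y, Γ.sy C a] (by
    simp only [List.mem_cons, List.not_mem_nil, or_false]
    rintro _ (rfl | rfl | rfl | rfl)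
    exacts [hg, hg, hs y hy, hs a ha])
  refine ⟨m, ?_⟩
  rw [mul_comm, Γ.ph_spec hA, ← hm]
  simp only [List.prod_cons, List.prod_nil, mul_one, sq, mul_assoc]

include Γ in
/-- **ISO from the geometry** -/
theorem out (hS : SupK C) (hL : PlK C) (hD : DomS C) (hB : Bir0 C) (hR : S.R1 = ⊥)
    (h20 : C.typ X 2 0 = ⊥) (h02 : C.typ X 0 2 = ⊥) : IsoOut C q S := by
  have hM := hA.man
  have hT := hA.typ
  have h0 : ∀ x, x ∈ C.typ X 3 1 ∨ x ∈ C.typ X 1 3 → x ∈ C.dg X 2 ∧ C.hc X * x = 0 := by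
    rintro x (hx | hx)
    · refine ⟨hT.le _ rfl hx, hT.eq_zero_of_typ hM hA.pd (hT.mul _ (hT.c1 X _ Br.oP_mem) hx)
        fun i j hi hj y hy => ?_⟩
      rw [Γ.dX] at hi hj
      obtain rfl : i = 0 := by omega
      obtain rfl : j = 2 := by omega
      rw [(Submodule.eq_bot_iff _).1 h02 y hy, mul_zero, map_zero]
    · refine ⟨hT.le _ rfl hx, hT.eq_zero_of_typ hM hA.pd (hT.mul _ (hT.c1 X _ Br.oP_mem) hx)
        fun i j hi hj y hy => ?_⟩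
      rw [Γ.dX] at hi hj
      obtain rfl : i = 2 := by omega
      obtain rfl : j = 0 := by omega
      rw [(Submodule.eq_bot_iff _).1 h20 y hy, mul_zero, map_zero]
  have h1 := Γ.N_pos
  have h2 := Γ.N_le
  refine ⟨-Γ.N, Γ.P, Γ.uU, Mor.comp Γ.r1 Γ.p, Mor.comp Γ.r2 Γ.p, Γ.ph C, by omega, by omega, Γ.dP,
    Γ.uU_dmn, fun a => Γ.ph_lam hA, fun _ _ _ a => Γ.ph_typ hA, fun ω hω hω1 x y h => ?_⟩
  have hx : x ∈ C.typ X 3 1 ∨ x ∈ C.typ X 1 3 := h.imp And.left And.left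
  have hy : y ∈ C.typ X 3 1 ∨ y ∈ C.typ X 1 3 := (h.imp And.right And.right).symm
  rw [Γ.ph_spec hA, Int.cast_neg, ← Γ.bb hA hS hL hD (h0 x hx).1 (h0 y hy).1 (h0 x hx).2 (h0 y hy).2,
    Γ.al_eq hA hB hR hω hω1 hx, Γ.al_eq hA hB hR hω hω1 hy]
  rfl

end Ge

end Crest.Agent.X262.Hx56
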