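import Crest.Agent.X262.Hx56.Form
import Crest.Agent.X262.Hx56.Fld
import Crest.Agent.X277.Unf.Main

/-!
# Row 262, ISO (helper56): the models of the family of lines

* `exists_mdl` : a model on which finitely many rational maps are morphisms;
* `exists_ge`  : the geometric data.
-/

set_option autoImplicit false
set_option linter.unusedSectionVars false
set_option linter.style.haveILetI false

noncomputable section

namespace Crest.Agent.X262.Hx56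

open Crest.Agent.X277 Crest.Agent.X277.Lef Crest.Agent.X277.AN.G1 Crest.Agent.X277.BD
open Crest.Agent.X277.BD.Br (At On oP morOf morOf_p pb_mem_On oP_mem gn_of_mem)
open Crest.Agent.X277.Cns Crest.Agent.R274.Prod1_134 Crest.Agent.X262.Top Crest.Agent.X262.Coh

theorem eft (X : SV) : Algebra.EssFiniteType ℂ X.F := inferInstance

theorem exists_mdl {E : Type} [Field E] [Algebra ℂ E] [Algebra.EssFiniteType ℂ E] {A B : SV}
    (α : A.F →ₐ[ℂ] E) (β : B.F →ₐ[ℂ] E) (g : BD ℂ E) : ∃ (Q : PModel ℂ E) (μ : Hom (sv Q) A)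
      (ν : Hom (sv Q) B), μ.p = Plc.ofHom α ∧ ν.p = Plc.ofHom β ∧ g ∈ On Q := by
  classical
  obtain ⟨Q, h⟩ := Unf.exists_on {pb α A.h, pb β B.h, g}
  exact ⟨Q, morOf α (h _ (by simp)), morOf β (h _ (by simp)), rfl, rfl, h _ (by simp)⟩

variable {G : MvPolynomial (Fin 6) ℂ} {F L K : Type} [Field F] [Algebra ℂ F] [Field L]
  [Algebra ℂ L] [Field K] [Algebra ℂ K]

set_option maxHeartbeats 1000000 in
theorem exists_ge (hL : LinStmt) (hG : SmCub G) (Λ : Lines G F L) (S : PModel ℂ F)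
    (X : Hyp 5 G K) {U : SV} {q : Hom U (sv X.P)} (hq : Bim q) (dS : dim ℂ F = 2)
    (dK : dim ℂ K = 4) (dSS : ((sv S).prod (sv S)).dim = 4) : Nonempty (Ge q (sv S)) := by
  haveI : Algebra.EssFiniteType ℂ K := eft (sv X.P)
  haveI : Algebra.EssFiniteType ℂ (PF ℂ F F) := eft ((sv S).prod (sv S))
  have hpf := isPF_lines Λ (by rw [trdeg_eq_dim]; exact_mod_cast dSS)
  set ρ := pfEquiv (isPF ℂ F F) hpf
  haveI : Algebra.EssFiniteType ℂ L := (Algebra.EssFiniteType.iff_of_algEquiv ρ).1 inferInstance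
  haveI := eft_rat' L
  haveI := eft_rat' (RatFunc L)
  have dL : dim ℂ L = 4 := by exact_mod_cast trdeg_eq_dim.symm.trans Λ.dim
  obtain ⟨l1, l2, l3⟩ := hL G F L Λ hG
  obtain ⟨κ, hκ⟩ := exists_kap X hG.1 (pt_zero Λ ▸ one_ne_zero) l1
  obtain ⟨α, hα, hα'⟩ := hq
  let α' := (AlgEquiv.ofBijective α ⟨α.toRingHom.injective, hα'⟩).symm
  have hαα : (κ.comp (α' : U.F →ₐ[ℂ] K)).comp α = κ := AlgHom.ext fun f =>
    congrArg κ ((AlgEquiv.ofBijective α ⟨α.toRingHom.injective, hα'⟩).symm_apply_apply f)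
  have rf : IsRF (cst L) RatFunc.X := isRF_ratFunc
  have rf' : IsRF (cst (RatFunc L)) RatFunc.X := isRF_ratFunc
  obtain ⟨σ, σ1, σ2⟩ := rf_map rf rf Λ.τ
  obtain ⟨ε, ε1, ε2⟩ := rf_map rf rf' (cst L)
  have σ3 : Function.Surjective σ := fun x => ⟨σ x, AlgHom.congr_fun
    (rf.ext (γ := σ.comp σ) (γ' := AlgHom.id ℂ _) (fun a => by simp [σ1, Λ.inv]) (by simp [σ2])) x⟩
  have τa : ∀ i, Λ.τ (Λ.a i) = Λ.a i := fun i =>
    (Λ.fix _).2 (IntermediateField.subset_adjoin _ _ ⟨i, rfl⟩)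
  have σ4 : ∀ k, σ (Λ.pt k) = Λ.pt k := fun k => by
    have h1 : Λ.τ (Λ.p k) = Λ.p k := by fin_cases k <;> simp [Lines.p, τa]
    have h2 : Λ.τ (Λ.q k) = Λ.q k := by fin_cases k <;> simp [Lines.q, τa]
    rw [pt_eq, mv, map_add, map_mul, σ1, σ1, σ2, h1, h2]
  have hpk : ∃ ij, pk Λ.p Λ.q ij ≠ 0 := ⟨(0, 1), plk_one Λ ▸ one_ne_zero⟩
  obtain ⟨Y, r, -, hr, -, hg⟩ := exists_mdl (A := (sv S).prod (sv S)) (B := sv S)
    (ρ : PF ℂ F F →ₐ[ℂ] L) Λ.ι (mxf ℂ (pk Λ.p Λ.q))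
  obtain ⟨P, p, uU, hp, huU, -⟩ := exists_mdl (A := sv Y) (B := U) (cst L) (κ.comp α') 0
  obtain ⟨P', n1, n2, hn1, hn2, -⟩ := exists_mdl (A := sv P) (B := sv P) (AlgHom.id ℂ _) σ 0
  obtain ⟨W, e1, e2, he1, he2, -⟩ := exists_mdl (A := sv P) (B := sv P) (cst (RatFunc L)) ε 0
  set a : BD ℂ K := mxf ℂ fun k => X.y k / X.y 0 with ha
  have la : Lin a (oP X.P) := by
    simp only [ha, div_eq_inv_mul]
    exact lin_mxf (k := ℂ) ⟨0, X.y_ne 0⟩ (inv_ne_zero (X.y_ne 0))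
  have ka : pb κ a = Λ.xi := by
    rw [ha, pb_mxf]
    simp only [hκ, pt_zero, div_one]
    rfl
  have hu0 : Hm (Mor.comp q uU).map κ := fun z => by
    rw [Mor.comp_map, ← hαα]
    exact (hm_of hα).comp (hm_of huU) z
  have aon : a ∈ On X.P := la.mem_On oP_mem
  have kon : pb κ (oP X.P) ∈ On P := by
    rw [← hαα, ← pb_pb]
    exact pb_mem_On huU (pb_mem_On hα oP_mem)
  set u : Hom (sv P) (sv X.P) := morOf κ kon
  have hu : u.p = Plc.ofHom κ := rfl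
  have xon : Λ.xi ∈ On P := ka ▸ pb_mem_On hu aon
  have cx : ∀ C : Th, C.MAN → C.pb u (C.hc (sv X.P)) = C.c1 (sv P) Λ.xi := fun C hM => by
    rw [← ka, ← hM.c1_dmn hu aon, hM.c1_lin la oP_mem]
  have σκ : σ.comp κ = κ := by
    have h1 : ∀ f ∈ X.P.A 0, σ (κ f) = κ f := fun f hf =>
      (AlgHom.mem_equalizer (σ.comp κ) κ f).1 (Algebra.adjoin_le (S := AlgHom.equalizer _ _) (by
        rintro _ ⟨k, rfl⟩
        change σ (κ (_ / _)) = κ (_ / _)
        rw [hκ, map_div₀, σ4, σ4]) hf)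
    ext f
    obtain ⟨b, hb, c, hc, -, rfl⟩ := X.frac f
    rw [AlgHom.comp_apply, map_div₀, map_div₀, h1 b hb, h1 c hc]
  set s : Fin 6 → RatFunc (RatFunc L) := fun k => cst _ (Λ.pt k) with hs
  set s' : Fin 6 → RatFunc (RatFunc L) := fun k => ε (Λ.pt k) with hs'
  have m1 : mxf ℂ s = pb (cst _) Λ.xi := (pb_mxf _ _).symm
  have m2 : mxf ℂ s' = pb ε Λ.xi := (pb_mxf _ _).symm
  have m3 : Lin (mxf ℂ (pk s s')) (pb (cst _) (pb (cst L) (mxf ℂ (pk Λ.p Λ.q)))) := by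
    have h1 : (RatFunc.X - cst _ RatFunc.X : RatFunc (RatFunc L)) ≠ 0 := by
      simpa only [map_neg, ← sub_eq_add_neg] using (rf'.add (-RatFunc.X)).t_ne
    rw [pb_mxf, pb_mxf]
    convert lin_mxf (k := ℂ) (s := fun ij => cst _ (cst L (pk Λ.p Λ.q ij)))
      (hpk.imp fun _ h => (map_ne_zero _).2 ((map_ne_zero _).2 h)) h1 with ij
    simp only [hs, hs', pt_eq, mv, pk, map_add, map_mul, map_sub, ε1, ε2]
    ring
  have o1 : pb (cst _) Λ.xi ∈ On W := pb_mem_On he1 xon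
  have o2 : pb ε Λ.xi ∈ On W := pb_mem_On he2 xon
  have o3 := pb_mem_On he1 (pb_mem_On hp hg)
  have p0 : Λ.pt 0 ≠ 0 := pt_zero Λ ▸ one_ne_zero
  have g1 : Gn W s := gn_of_mem ⟨0, (map_ne_zero _).2 p0⟩ (m1 ▸ o1)
  have g2 : Gn W s' := gn_of_mem ⟨0, (map_ne_zero _).2 p0⟩ (m2 ▸ o2)
  have g3 : Gn W (pk s s') := gn_of_mem ⟨(0, 1), by
    simpa [pk, hs, hs', pt_zero, pt_one, ε2, ← sub_eq_add_neg] using
      (rf'.add (-RatFunc.X)).t_ne⟩ (m3.mem_On o3)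
  obtain ⟨N, hN⟩ := num_N κ (pb (cst L) (mxf ℂ (pk Λ.p Λ.q))) (l := [a, a, a, a]) dK.symm
  have n0 : 0 ≤ bnum [a, a, a, a] := bnum_nonneg (by simpa using (free_mxf _).nef)
  have n1' : bnum [Λ.xi, Λ.xi, Λ.xi, Λ.xi, Λ.g] = bnum [a, a, a, a] * N := by
    rw [← hN, pb_mxf]
    simp only [List.map_cons, List.map_nil, ka]
    exact bnum_comm [_, _, _, _] [_]
  rw [n1'] at l2 l3
  have n3 : 0 < N := (pos_iff_pos_of_mul_pos l2).1 (n0.lt_of_ne fun h => by simp [← h] at l2)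
  have n4 : N ≤ 36 := by nlinarith [(pos_iff_pos_of_mul_pos l2).2 n3]
  have hf : Hm (fst (sv S) (sv S)).map (pα ℂ F F) := hm_of rfl
  have hn : Hm (snd (sv S) (sv S)).map (pβ ℂ F F) := hm_of rfl
  refine ⟨{
    Y := sv Y, P := sv P, P' := sv P', W := sv W, r := r, p := p, uU := uU, u := u, n1 := n1
    n2 := n2, e1 := e1, e2 := e2, g := mxf ℂ (pk Λ.p Λ.q)
    D := mxf ℂ s + mxf ℂ s' - mxf ℂ (pk s s'), N := N, dX := dK, dS := dS, dY := dL
    dP := (dim_rat L).trans (by rw [dL])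
    dW := (dim_rat _).trans (by rw [dim_rat L, dL])
    r_bim := ⟨_, hr, ρ.surjective⟩
    p_dmn := ⟨_, hp⟩
    uU_dmn := ⟨_, huU⟩
    qu := fun z => (Mor.comp_map q uU z).symm.trans (hu0.eq (hm_of hu) rfl z)
    n1_bim := ⟨_, hn1, Function.surjective_id⟩
    n2_bim := ⟨_, hn2, σ3⟩
    nu := ((hm_of hu).comp (hm_of hn1)).eq ((hm_of hu).comp (hm_of hn2)) σκ.symm
    nr1 := (((hf.comp (hm_of hr)).comp (hm_of hp)).comp (hm_of hn1)).eq
      (((hn.comp (hm_of hr)).comp (hm_of hp)).comp (hm_of hn2)) (AlgHom.ext fun f => ?_)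
    nr2 := (((hn.comp (hm_of hr)).comp (hm_of hp)).comp (hm_of hn1)).eq
      (((hf.comp (hm_of hr)).comp (hm_of hp)).comp (hm_of hn2)) (AlgHom.ext fun f => ?_)
    ee := ((hm_of hp).comp (hm_of he1)).eq ((hm_of hp).comp (hm_of he2))
      (AlgHom.ext fun f => (ε1 f).symm)
    rng := exists_pair (X := X.P) rf hκ (gn_of_mem hpk hg) (ε2 ▸ rf') ε1 (hm_of hp) (hm_of hu)
      (hm_of he1) (hm_of he2)
    g_on := hg
    D_on := sub_mem (add_mem (m1 ▸ o1) (m2 ▸ o2)) (m3.mem_On o3)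
    D_nn := dia_nonneg g1 g2 g3
    supp := dia_supp (X := X.P) g1 g2 g3 (fun k l => by rw [AlgHom.comp_apply, hκ, map_div₀])
      (fun k l => by rw [AlgHom.comp_apply, hκ, map_div₀]) ((hm_of hu).comp (hm_of he1))
      ((hm_of hu).comp (hm_of he2))
    cD := fun C hM => ?_
    ne := fun C hM => ?_
    nN := fun C hM => ?_
    N_pos := n3
    N_le := n4 }⟩
  · simp [ρ, σ1, Λ.inv]
  · simp [ρ, σ1]
  · rw [m1, m2, hM.c1_sub (X := sv W) (add_mem o1 o2) (m3.mem_On o3), hM.c1_lin (X := sv W) m3 o3,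
      hM.c1_add (sv W) _ o1 _ o2, cx C hM, hM.c1_dmn he1 xon, hM.c1_dmn he2 xon, hM.c1_dmn hp hg,
      hM.c1_dmn he1 (pb_mem_On hp hg)]
  · have h1 := hM.c1_num (sv P) (Λ.xi :: [oP Y, oP Y, oP Y, oP Y].map (pb (cst L))) (by
      simpa using ⟨xon, pb_mem_On hp oP_mem⟩)
    have h2 := hM.c1_num (sv Y) [oP Y, oP Y, oP Y, oP Y] (by simpa using oP_mem)
    rw [num_e Λ (l := [oP Y, oP Y, oP Y, oP Y]) dL.symm, ← h2] at h1
    rw [cx C hM, map_pow, hM.c1_dmn hp oP_mem]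
    convert h1 using 2 <;> simp only [List.map_cons, List.map_nil, List.prod_cons, List.prod_nil] <;>
      ring
  · have h1 := hM.c1_num (sv P) (pb (cst L) (mxf ℂ (pk Λ.p Λ.q)) :: [a, a, a, a].map (pb κ)) (by
      simpa using ⟨pb_mem_On hp hg, pb_mem_On hu aon⟩)
    have h2 := hM.c1_num (sv X.P) [a, a, a, a] (by simpa using aon)
    rw [hN, Int.cast_mul, ← h2, mul_comm] at h1
    rw [map_pow, cx C hM, hM.c1_dmn hp hg, Th.hc, ← hM.c1_lin la oP_mem]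
    convert h1 using 2
    · simp only [List.map_cons, List.map_nil, List.prod_cons, List.prod_nil, ka]
      ring
    · simp only [List.map_cons, List.map_nil, List.prod_cons, List.prod_nil]
      congr 1
      ring

end Crest.Agent.X262.Hx56
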