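import Crest.Agent.X277.Cns.PBL
import Crest.Agent.X277.Cns.Lift
import Crest.Agent.X277.BD.BrA

/-!
# Row 262, ISO (helper56): points on the members of a family of lines

* `Hm φ α`   : the map of points `φ` is induced by the field map `α`;
* `OnL`      : a point lies on the line of the family at a place;
* `lift1`    : every point of the line is a position of the moving point;
* `exists_pair` : pairs of points on one line lift to the fibre square;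
* `dia_nonneg`, `dia_supp` : the diagonal of the fibre square.
-/

set_option autoImplicit false
set_option linter.unusedSectionVars false

noncomputable section

namespace Crest.Agent.X262.Hx56

open Crest.Agent.X277 Crest.Agent.X277.Lef Crest.Agent.X277.AN.G1 Crest.Agent.X277.BD
open Crest.Agent.X277.BD.Br (At On oP at_mxf gn_of_mem)
open Crest.Agent.X277.Cns

variable {L E E' K : Type} [Field L] [Algebra ℂ L] [Field E] [Algebra ℂ E] [Field E']
  [Algebra ℂ E'] [Field K] [Algebra ℂ K]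

/-- the local place `R'` lies over `R` -/
abbrev Dm (R : LP L) (π : L →ₐ[ℂ] E) (R' : LP E) : Prop := R.Dom (R'.comap (Plc.ofHom π))

theorem Dm.mem {R : LP L} {π : L →ₐ[ℂ] E} {R' : LP E} (h : Dm R π R') {f : L} (hf : f ∈ R.O) :
    π f ∈ R'.O := (h.le hf).2

theorem Dm.v {R : LP L} {π : L →ₐ[ℂ] E} {R' : LP E} (h : Dm R π R') {f : L} (hf : f ∈ R.O) :
    R'.v (π f) = R.v f := h.eq f hf

theorem dm_of {R : LP L} {π : L →ₐ[ℂ] E} {R' : LP E}
    (h : ∀ f ∈ R.O, π f ∈ R'.O ∧ R'.v (π f) = R.v f) : Dm R π R' :=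
  ⟨fun f hf => ⟨trivial, (h f hf).1⟩, fun f hf => (h f hf).2⟩

theorem Dm.comp {R : LP L} {π : L →ₐ[ℂ] E} {R' : LP E} {ρ : E →ₐ[ℂ] E'} {R'' : LP E'}
    (h : Dm R π R') (h' : Dm R' ρ R'') : Dm R (ρ.comp π) R'' :=
  dm_of fun _ hf => ⟨h'.mem (h.mem hf), (h'.v (h.mem hf)).trans (h.v hf)⟩

/-- the map of points `φ` is induced by `α` -/
def Hm {Q : PModel ℂ E} {P : PModel ℂ L} (φ : Pts Q → Pts P) (α : L →ₐ[ℂ] E) : Prop :=
  ∀ x, Dm (lp (φ x)) α (lp x)

section Hm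

variable {Q : PModel ℂ E} {P : PModel ℂ L} {Q' : PModel ℂ E'} {φ φ' : Pts Q → Pts P}
  {α : L →ₐ[ℂ] E}

theorem hm_of {μ : Mor Q P} (h : μ.p = Plc.ofHom α) : Hm μ.map α := hom_dom h

theorem Hm.comp {ψ : Pts Q' → Pts Q} {β : E →ₐ[ℂ] E'} (h : Hm φ α) (h' : Hm ψ β) :
    Hm (fun x => φ (ψ x)) (β.comp α) := fun x => (h _).comp (h' x)

theorem Hm.eq {α' : L →ₐ[ℂ] E} (h : Hm φ α) (h' : Hm φ' α') (e : α = α') (x : Pts Q) :
    φ x = φ' x := eq_of_dom (h x) (e ▸ h' x)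

/-- the centre of a local place -/
theorem exists_ctr (Q : PModel ℂ E) (R : LP E) : ∃ w : Pts Q, ∀ {L : Type} [Field L] [Algebra ℂ L]
    {P : PModel ℂ L} {φ : Pts Q → Pts P} {α : L →ₐ[ℂ] E}, Hm φ α → ∀ y, Dm (lp y) α R → φ w = y := by
  obtain ⟨V, h1, h2⟩ := exists_val_dom R
  obtain ⟨w, hw⟩ := exists_ov Q (KV.of_le h1)
  refine ⟨w, fun {_ _ _ _ φ α} h y hy => eq_of_ov (V := cm α V) (fun f hf => hw _ ((h w).mem hf))
    (fun f hf => h1 _ (hy.mem hf)) fun f hf hu => ?_⟩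
  have h3 := (h2 _ (hy.mem hf)).1 ⟨(map_ne_zero α).2 hu.1, hu.2.1, by rw [← map_inv₀]; exact hu.2.2⟩
  rwa [hy.v hf] at h3

end Hm

theorem isRF_mob {π : L →ₐ[ℂ] E} {t : E} (h : IsRF π t) {a b c d : L} (h0 : a * d - c * b ≠ 0) :
    IsRF π ((π c + t * π d) / (π a + t * π b)) := by
  by_cases hb : b = 0
  · subst hb
    rw [mul_zero, sub_zero, mul_ne_zero_iff] at h0
    have := (h.scale (div_ne_zero h0.2 h0.1)).add (c / a)
    convert this using 1
    have h1 := (map_ne_zero π).2 h0.1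
    rw [map_zero, map_div₀, map_div₀, mul_zero, add_zero]
    ring
  · have h1 := (h.scale hb).add a
    have := (h1.inv.scale (div_ne_zero (neg_ne_zero.2 h0) hb)).add (d / b)
    convert this using 1
    have h2 := (map_ne_zero π).2 hb
    have h3 := h1.t_ne
    rw [map_div₀, map_div₀, map_neg, map_sub, map_mul, map_mul, add_comm (π a), mul_comm t (π b),
      ← div_eq_mul_inv, div_add' _ _ _ h3]
    congr 1
    field_simp
    ring

variable {ι : Type}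

/-- the Plücker coordinates -/
def pk (p q : ι → L) (ij : ι × ι) : L := p ij.1 * q ij.2 - p ij.2 * q ij.1

/-- the moving point -/
def mv (π : L →ₐ[ℂ] E) (t : E) (p q : ι → L) (k : ι) : E := π (p k) + t * π (q k)

theorem mv_eq (π : L →ₐ[ℂ] E) (t : E) {p q : ι → L} {i j : ι} (h : pk p q (i, j) ≠ 0) (k : ι) :
    mv π t p q k = mv π t p q i * π (pk p q (k, j) / pk p q (i, j)) +
      mv π t p q j * π (pk p q (i, k) / pk p q (i, j)) := by
  have h1 := (map_ne_zero π).2 h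
  rw [map_div₀, map_div₀]
  field_simp
  simp only [mv, pk, map_sub, map_mul]
  ring

theorem map_pk (ρ : L →ₐ[ℂ] E) (p q : ι → L) (ij : ι × ι) :
    pk (fun k => ρ (p k)) (fun k => ρ (q k)) ij = ρ (pk p q ij) := by
  simp only [pk, map_sub, map_mul]

/-- the point `a` lies on the line at the place `R` -/
structure OnL (R : LP L) (p q : ι → L) (i j : ι) (a : ι → ℂ) : Prop where
  ne : pk p q (i, j) ≠ 0
  mem : ∀ kl, pk p q kl / pk p q (i, j) ∈ R.O
  eq : ∀ k, a k = a i * R.v (pk p q (k, j) / pk p q (i, j)) +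
    a j * R.v (pk p q (i, k) / pk p q (i, j))

variable {R : LP L} {p q : ι → L} {i j : ι} {a : ι → ℂ}

theorem pk_swap (p q : ι → L) (i j : ι) : pk p q (j, i) = -pk p q (i, j) := by simp [pk]

theorem OnL.symm (h : OnL R p q i j a) : OnL R p q j i a := by
  refine ⟨by rw [pk_swap]; exact neg_ne_zero.2 h.ne, fun kl => ?_, fun k => ?_⟩
  · rw [pk_swap p q i j, div_neg]
    exact neg_mem (h.mem kl)
  · rw [pk_swap p q i j, pk_swap p q i k, pk_swap p q k j, neg_div_neg_eq, neg_div_neg_eq, add_comm]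
    exact h.eq k

theorem OnL.map (h : OnL R p q i j a) {ρ : L →ₐ[ℂ] E} {R' : LP E} (hρ : Dm R ρ R') :
    OnL R' (fun k => ρ (p k)) (fun k => ρ (q k)) i j a := by
  refine ⟨by rw [map_pk]; exact (map_ne_zero ρ).2 h.ne, fun kl => ?_, fun k => ?_⟩
  · rw [map_pk, map_pk, ← map_div₀]
    exact hρ.mem (h.mem kl)
  · rw [map_pk, map_pk, map_pk, ← map_div₀, ← map_div₀, hρ.v (h.mem _), hρ.v (h.mem _)]
    exact h.eq k

variable {π : L →ₐ[ℂ] E} {t : E}

theorem lift0 (ht : IsRF π t) (h : OnL R p q i j a) (hi : a i ≠ 0) : ∃ R' : LP E, Dm R π R' ∧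
    ∀ k, mv π t p q k / mv π t p q i ∈ R'.O ∧ R'.v (mv π t p q k / mv π t p q i) = a k / a i := by
  have h1 : IsRF π (mv π t p q j / mv π t p q i) := isRF_mob ht h.ne
  have h2 : mv π t p q i ≠ 0 := (div_ne_zero_iff.1 h1.t_ne).2
  have h3 : Dm R π (lpR h1 R (a j / a i)) := dom_lpR h1 R _
  refine ⟨_, h3, fun k => ?_⟩
  have h4 : mv π t p q k / mv π t p q i = π (pk p q (k, j) / pk p q (i, j)) +
      mv π t p q j / mv π t p q i * π (pk p q (i, k) / pk p q (i, j)) := by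
    rw [mv_eq π t h.ne k]
    field_simp
  have h5 := mul_mem (τ_mem_lpR h1 (L := R) (c := a j / a i)) (h3.mem (h.mem (i, k)))
  refine ⟨h4 ▸ add_mem (h3.mem (h.mem _)) h5, ?_⟩
  rw [h4, LP.v_add _ (h3.mem (h.mem _)) h5, LP.v_mul _ (τ_mem_lpR h1) (h3.mem (h.mem _)),
    lpR_v_τ, h3.v (h.mem _), h3.v (h.mem _), h.eq k]
  field_simp

section Pt

variable {X : PModel ℂ K} {p q : Fin (X.N + 1) → L} {i j n : Fin (X.N + 1)} {κ : K →ₐ[ℂ] E}
  {x : Pts X}

/-- **every point of the line is a position of the moving point** -/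
theorem lift1 (ht : IsRF π t) (hκ : ∀ k l, κ (X.y k / X.y l) = mv π t p q k / mv π t p q l)
    (hx : x ∈ pat X n) (h : OnL R p q i j fun k => ev (X.y k / X.y n) x) :
    ∃ R' : LP E, Dm R π R' ∧ Dm (lp x) κ R' := by
  have key : ∀ i j, OnL R p q i j (fun k => ev (X.y k / X.y n) x) → ev (X.y i / X.y n) x ≠ 0 →
      ∃ R' : LP E, Dm R π R' ∧ Dm (lp x) κ R' := fun i j h hi => by
    obtain ⟨R', h1, h2⟩ := lift0 ht h hi
    refine ⟨R', h1, lp_dom ((mem_pat_iff hx).2 hi) (fun k => ⟨trivial, ?_⟩) fun k => ?_⟩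
    · rw [Plc.ofHom_π, hκ]
      exact (h2 k).1
    · rw [LP.comap_v, Plc.ofHom_π, hκ, (h2 k).2,
        ← div_div_div_cancel_right₀ (X.y_ne n) (X.y k) (X.y i)]
      exact (LP.v_div (y_mem hx k) hi).symm
  by_cases hi : ev (X.y i / X.y n) x = 0
  · refine key j i h.symm fun hj => ?_
    have h1 := h.eq n
    simp only [hi, hj, zero_mul, add_zero, div_self (X.y_ne n)] at h1
    exact one_ne_zero ((lp x).v_one.symm.trans h1)
  · exact key i j h hi

/-- the moving point lies on the line -/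
theorem onL_of (hκ : ∀ k l, κ (X.y k / X.y l) = mv π t p q k / mv π t p q l) (hx : x ∈ pat X n)
    {R' : LP E} (h1 : Dm R π R') (h2 : Dm (lp x) κ R') (h3 : pk p q (i, j) ≠ 0)
    (h4 : ∀ kl, pk p q kl / pk p q (i, j) ∈ R.O) :
    OnL R p q i j fun k => ev (X.y k / X.y n) x := by
  refine ⟨h3, h4, fun k => ?_⟩
  have h5 : κ (X.y k / X.y n) = κ (X.y i / X.y n) * π (pk p q (k, j) / pk p q (i, j)) +
      κ (X.y j / X.y n) * π (pk p q (i, k) / pk p q (i, j)) := by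
    rw [hκ, hκ, hκ, mv_eq π t h3 k]
    ring
  have h6 := fun k => h2.mem (y_mem hx k)
  have h7 := fun kl => h1.mem (h4 kl)
  have h8 := congrArg R'.v h5
  rwa [R'.v_add (mul_mem (h6 _) (h7 _)) (mul_mem (h6 _) (h7 _)), R'.v_mul (h6 _) (h7 _),
    R'.v_mul (h6 _) (h7 _), h2.v (y_mem hx _), h2.v (y_mem hx _), h2.v (y_mem hx _), h1.v (h4 _),
    h1.v (h4 _)] at h8

/-- **pairs of points on one line lift to the fibre square** -/
theorem exists_pair {Y : PModel ℂ L} {P : PModel ℂ E} {W : PModel ℂ E'} (ht : IsRF π t)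
    (hκ : ∀ k l, κ (X.y k / X.y l) = mv π t p q k / mv π t p q l) (hg : Gn Y (pk p q))
    {ε₁ ε₂ : E →ₐ[ℂ] E'} (ht' : IsRF ε₁ (ε₂ t)) (hε : ∀ a, ε₂ (π a) = ε₁ (π a))
    {pm : Pts P → Pts Y} {u : Pts P → Pts X} {e₁ e₂ : Pts W → Pts P} (hp : Hm pm π) (hu : Hm u κ)
    (h₁ : Hm e₁ ε₁) (h₂ : Hm e₂ ε₂) (z₁ z₂ : Pts P) (hz : pm z₁ = pm z₂) :
    ∃ w, pm (e₁ w) = pm z₁ ∧ u (e₁ w) = u z₁ ∧ u (e₂ w) = u z₂ := by
  obtain ⟨⟨i, j⟩, h3, h4⟩ := hg (pm z₁)
  obtain ⟨n₁, hn₁⟩ := exists_pat (u z₁)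
  obtain ⟨n₂, hn₂⟩ := exists_pat (u z₂)
  obtain ⟨R₁, a1, a2⟩ := lift1 ht hκ hn₁ (onL_of hκ hn₁ (hp z₁) (hu z₁) h3 h4)
  obtain ⟨R₂, b1, b2⟩ := lift1 (κ := ε₂.comp κ) ht' (fun k l => by
    rw [AlgHom.comp_apply, hκ]
    simp only [mv, map_div₀, map_add, map_mul, hε]) hn₂
    ((onL_of hκ hn₂ (hz ▸ hp z₂) (hu z₂) h3 h4).map a1)
  obtain ⟨w, hw⟩ := exists_ctr W R₂
  exact ⟨w, hw (hp.comp h₁) _ (a1.comp b1), hw (hu.comp h₁) _ (a2.comp b1), hw (hu.comp h₂) _ b2⟩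

end Pt

section Dia

variable {W : PModel ℂ E} [Fintype ι] {s s' : ι → E}

theorem dia_at (h : Gn W s) (h' : Gn W s') (h'' : Gn W (pk s s')) (w : Pts W) :
    ∃ a b kl, s a ≠ 0 ∧ s' b ≠ 0 ∧ pk s s' kl ≠ 0 ∧ (∀ k, s k / s a ∈ (lp w).O) ∧
      (∀ k, s' k / s' b ∈ (lp w).O) ∧ (∀ k, pk s s' k / pk s s' kl ∈ (lp w).O) ∧
      pk s s' kl / (s a * s' b) ∈ (lp w).O ∧
      At (mxf ℂ s + mxf ℂ s' - mxf ℂ (pk s s')) w (s a * s' b / pk s s' kl) := by
  obtain ⟨a, h1, h2⟩ := h w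
  obtain ⟨b, h3, h4⟩ := h' w
  obtain ⟨kl, h5, h6⟩ := h'' w
  refine ⟨a, b, kl, h1, h3, h5, h2, h4, h6, ?_,
    ((at_mxf h1 h2).add (at_mxf h3 h4)).sub (at_mxf h5 h6)⟩
  rw [pk, sub_div, ← div_mul_div_comm, ← div_mul_div_comm]
  exact sub_mem (mul_mem (h2 _) (h4 _)) (mul_mem (h2 _) (h4 _))

theorem dia_nonneg (h : Gn W s) (h' : Gn W s') (h'' : Gn W (pk s s')) :
    0 ≤ mxf ℂ s + mxf ℂ s' - mxf ℂ (pk s s') := Br.le_of_at (P := W) fun w => by
  obtain ⟨a, b, kl, -, -, -, -, -, -, h1, h2⟩ := dia_at h h' h'' w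
  exact ⟨1, _, Br.at_zero w, h2, by rwa [one_div, inv_div]⟩

end Dia

theorem dia_supp {X : PModel ℂ K} {W : PModel ℂ E} {s s' : Fin (X.N + 1) → E} (h : Gn W s)
    (h' : Gn W s') (h'' : Gn W (pk s s')) {κ κ' : K →ₐ[ℂ] E}
    (hκ : ∀ k l, κ (X.y k / X.y l) = s k / s l) (hκ' : ∀ k l, κ' (X.y k / X.y l) = s' k / s' l)
    {u u' : Pts W → Pts X} (hu : Hm u κ) (hu' : Hm u' κ') (w : Pts W)
    (hw : ¬ At (mxf ℂ s + mxf ℂ s' - mxf ℂ (pk s s')) w 1) : u w = u' w := by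
  obtain ⟨a, b, kl, h1, h2, h3, h4, h5, h6, h7, h8⟩ := dia_at h h' h'' w
  have h9 : (lp w).v (pk s s' kl / (s a * s' b)) = 0 := by
    by_contra h0
    exact hw (h8.of_ev' (by rwa [one_div, inv_div]))
  have h10 : ∀ k l, (lp w).v (s k / s a) * (lp w).v (s' l / s' b) =
      (lp w).v (s l / s a) * (lp w).v (s' k / s' b) := fun k l => by
    have e : s k / s a * (s' l / s' b) - s l / s a * (s' k / s' b) =
        pk s s' (k, l) / pk s s' kl * (pk s s' kl / (s a * s' b)) := by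
      rw [div_mul_div_cancel₀ h3, pk]
      field_simp
    rw [← sub_eq_zero, ← LP.v_mul _ (h4 _) (h5 _), ← LP.v_mul _ (h4 _) (h5 _),
      ← LP.v_sub (mul_mem (h4 _) (h5 _)) (mul_mem (h4 _) (h5 _)), e, LP.v_mul _ (h6 _) h7, h9,
      mul_zero]
  have h11 : ∀ {κ : K →ₐ[ℂ] E} {u : Pts W → Pts X}, Hm u κ → ∀ c,
      (∀ k, κ (X.y k / X.y c) ∈ (lp w).O) → u w ∈ pat X c := fun {κ u} hu c hc =>
    mem_pat_of_dom (hu w) fun k => ⟨trivial, hc k⟩
  have ha := h11 hu a fun k => (hκ k a).symm ▸ h4 k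
  have hb := h11 hu' b fun k => (hκ' k b).symm ▸ h5 k
  have h12 : ∀ k, ev (X.y k / X.y a) (u w) = (lp w).v (s k / s a) := fun k => by
    rw [← hκ, (hu w).v (y_mem ha k)]
  have h13 : ∀ k, ev (X.y k / X.y b) (u' w) = (lp w).v (s' k / s' b) := fun k => by
    rw [← hκ', (hu' w).v (y_mem hb k)]
  have h14 : (lp w).v (s' a / s' b) ≠ 0 := fun h0 => by
    have := h10 a b
    rw [h0, mul_zero, div_self h1, div_self h2, LP.v_one, mul_one] at this
    exact one_ne_zero this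
  refine pt_ext ha ((mem_pat_iff hb).2 (h13 a ▸ h14)) fun k => ?_
  have h15 := h10 k a
  rw [div_self h1, LP.v_one, one_mul] at h15
  rw [h12, ← div_div_div_cancel_right₀ (X.y_ne b) (X.y k)]
  refine Eq.trans ?_ (LP.v_div (y_mem hb k) (show ev _ _ ≠ 0 from h13 a ▸ h14)).symm
  change _ = ev _ _ / ev _ _
  rw [h13, h13, ← h15, mul_div_cancel_right₀ _ h14]

end Crest.Agent.X262.Hx56
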