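import Crest.Agent.X262.Hx56.Geo
import Crest.Agent.X262.Form88.All
import Crest.Agent.X262.Rul.NoPG
import Crest.Agent.X262.Lin62.Main

/-!
# Row 262, ISO (helper56): the theorem

* `typ_rat`  : a rational variety has no class of type `(2,0)` or `(0,2)`;
* `isoStmt`  : `IsoStmt C` from `C.Ax`.
-/

set_option autoImplicit false

noncomputable section

namespace Crest.Agent.X262.Hx56

open Crest.Agent.X277 Crest.Agent.X277.Lef Crest.Agent.X277.AN.G1 Crest.Agent.X277.BD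
open Crest.Agent.X277.BD.Br (oP_mem)
open Crest.Agent.X262.Top Crest.Agent.X262.Coh

variable {C : Th} (hA : C.Ax)

include hA

theorem dim_prod (X Y : SV) : (X.prod Y).dim = X.dim + Y.dim := by
  have hM := hA.man
  by_contra h
  have h1 := hM.itg_dg _ (Ne.symm h) _ (hM.dg_mul _ (hM.pb_dg (fst X Y) _ (hM.hc_pow X X.dim))
    (hM.pb_dg (snd X Y) _ (hM.hc_pow Y Y.dim)))
  rw [hA.fub, hM.itg_hc, hM.itg_hc] at h1
  exact mul_ne_zero X.dgr_ne Y.dgr_ne h1

/-- a rational variety has no class of type `(2,0)` or `(0,2)` -/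
theorem typ_rat {K : Type} [Field K] [Algebra ℂ K] {N : ℕ} (Y : Hyp N 0 K) (X : PModel ℂ K)
    {p q : ℕ} (h : (p, q) = (2, 0) ∨ (p, q) = (0, 2)) : C.typ (sv X) p q = ⊥ := by
  have hT := hA.typ
  have := eft (sv X)
  obtain ⟨M, f, g, hf, hg, -⟩ :=
    exists_mdl (A := sv X) (B := sv Y.P) (AlgHom.id ℂ K) (AlgHom.id ℂ K) 0
  refine (Submodule.eq_bot_iff _).2 fun x hx => hA.pd.pb_inj hA.man ⟨_, hf⟩ ?_
  have h1 := hT.pb f x hx
  have h2 := hT.push_typ hA.man hA.pd g (p' := p) (q' := q) (add_comm _ _) (add_comm _ _) h1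
  have h3 := hT.le _ (k := 1) (by rcases h with h | h <;> cases h <;> rfl) h2
  rw [hA.pn (sv Y.P) (fun m q hq h => zero_dvd_iff.1 ((Y.ker m q hq).1 h)) 1, pow_one,
    Submodule.mem_span_singleton] at h3
  obtain ⟨c, h3⟩ := h3
  have h4 : C.push g (C.pb f x) = 0 :=
    Submodule.disjoint_def.1 ((hT.int (sv Y.P)).submodule_iSupIndep.pairwiseDisjoint
      (show ((p, q) : ℕ × ℕ) ≠ (1, 1) by rcases h with h | h <;> rw [h] <;> decide)) _ h2
      (h3 ▸ Submodule.smul_mem _ _ (hT.c1 _ _ oP_mem))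
  rw [← Form88.bir0_of hA g ⟨_, hg, Function.surjective_id⟩ 2 (C.pb f x) (by
    rcases h with h | h <;> cases h
    exacts [Or.inl h1, Or.inr h1]), h4, map_zero, map_zero]

/-- **ISO** -/
theorem isoStmt : IsoStmt C := by
  rintro G F L K _ _ _ _ _ _ _ d S X U q hG ⟨Λ⟩ ⟨Y⟩ hq
  obtain ⟨β⟩ := Brg.Hyp0.basis_of_free (Rul.hyp_free Y).1 (Rul.hyp_free Y).2
  have dK : dim ℂ K = 4 := by simpa using Module.finrank_eq_card_basis β
  have dS : dim ℂ F = 2 := by simpa using Module.finrank_eq_card_basis S.b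
  obtain ⟨Γ⟩ := exists_ge Lin62.linStmt hG Λ S.P X hq dS dK
    ((dim_prod hA _ _).trans (congrArg₂ (· + ·) dS dS))
  exact Γ.out hA (Form88.supK hA) (Form88.plK hA) (Form88.domS hA) (Form88.bir0_of hA)
    ((Submodule.eq_bot_iff _).2 fun ω hω => S.irr ω ((Submodule.mem_iInf _).1 hω))
    (typ_rat hA Y X.P (Or.inl rfl)) (typ_rat hA Y X.P (Or.inr rfl))

end Crest.Agent.X262.Hx56
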